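import Mathlib

/-!
P229: local smooth realization in `ℝ³` of two classes of metrics with functional parameters.
-/

namespace Vale.Agent.Results.P229.MouldingMetrics

open scoped ContDiff Topology

/-- the metric `g` (a field of bilinear forms on the plane) is locally `C^∞`-realizable at `p`:
some open neighbourhood of `p` has a smooth isometric immersion into Euclidean `ℝ³` -/
def LocallyRealizable (g : ℝ × ℝ → ℝ × ℝ → ℝ × ℝ → ℝ) (p : ℝ × ℝ) : Prop :=
  ∃ (U : Set (ℝ × ℝ)) (F : ℝ × ℝ → EuclideanSpace ℝ (Fin 3)), IsOpen U ∧ p ∈ U ∧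
    ContDiffOn ℝ ∞ F U ∧
    ∀ z ∈ U, ∀ x y : ℝ × ℝ, inner ℝ (fderiv ℝ F z x) (fderiv ℝ F z y) = g z x y

/-- moulding type: `g = du² + (α(v) + f(u) β(v))² dv²` on `W` for smooth functions `u, v` on `W`
and smooth functions `f, α, β` of one variable -/
def MouldingType (g : ℝ × ℝ → ℝ × ℝ → ℝ × ℝ → ℝ) (W : Set (ℝ × ℝ)) : Prop :=
  ∃ (u v : ℝ × ℝ → ℝ) (f α β : ℝ → ℝ), ContDiffOn ℝ ∞ u W ∧ ContDiffOn ℝ ∞ v W ∧
    ContDiff ℝ ∞ f ∧ ContDiff ℝ ∞ α ∧ ContDiff ℝ ∞ β ∧
    ∀ z ∈ W, ∀ x y : ℝ × ℝ, g z x y = fderiv ℝ u z x * fderiv ℝ u z y +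
      (α (v z) + f (u z) * β (v z)) ^ 2 * (fderiv ℝ v z x * fderiv ℝ v z y)

/-- translation type: `g = e(u) du² + 2 a(u) b(v) du dv + k(v) dv²` on `W` for smooth functions
`u, v` on `W` and smooth functions `e, k, a, b` of one variable, where the form is positive
definite in `du, dv` -/
def TranslationType (g : ℝ × ℝ → ℝ × ℝ → ℝ × ℝ → ℝ) (W : Set (ℝ × ℝ)) : Prop :=
  ∃ (u v : ℝ × ℝ → ℝ) (e k a b : ℝ → ℝ), ContDiffOn ℝ ∞ u W ∧ ContDiffOn ℝ ∞ v W ∧
    ContDiff ℝ ∞ e ∧ ContDiff ℝ ∞ k ∧ ContDiff ℝ ∞ a ∧ ContDiff ℝ ∞ b ∧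
    (∀ z ∈ W, 0 < e (u z) ∧ 0 < k (v z) ∧ (a (u z) * b (v z)) ^ 2 < e (u z) * k (v z)) ∧
    ∀ z ∈ W, ∀ x y : ℝ × ℝ, g z x y = e (u z) * (fderiv ℝ u z x * fderiv ℝ u z y) +
      a (u z) * b (v z) * (fderiv ℝ u z x * fderiv ℝ v z y + fderiv ℝ v z x * fderiv ℝ u z y) +
      k (v z) * (fderiv ℝ v z x * fderiv ℝ v z y)

/-- antiderivative -/
noncomputable def prim (f : ℝ → ℝ) (x : ℝ) : ℝ := ∫ t in (0 : ℝ)..x, f t

theorem prim_hasDerivAt {f : ℝ → ℝ} (hf : Continuous f) (x : ℝ) :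
    HasDerivAt (prim f) (f x) x :=
  intervalIntegral.integral_hasDerivAt_right (hf.intervalIntegrable _ _)
    (hf.stronglyMeasurableAtFilter _ _) hf.continuousAt

theorem prim_contDiff {f : ℝ → ℝ} (hf : ContDiff ℝ ∞ f) : ContDiff ℝ ∞ (prim f) := by
  rw [contDiff_infty_iff_deriv]
  refine ⟨fun x => (prim_hasDerivAt hf.continuous x).differentiableAt, ?_⟩
  have : deriv (prim f) = f := funext fun x => (prim_hasDerivAt hf.continuous x).deriv
  rw [this]
  exact hf

theorem loc_sqrt (q : ℝ → ℝ) (hq : ContDiff ℝ ∞ q) (u0 : ℝ) (h : 0 < q u0) :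
    ∃ r : ℝ → ℝ, ContDiff ℝ ∞ r ∧ ∀ᶠ u in 𝓝 u0, r u ^ 2 = q u := by
  obtain ⟨ε, hε, hball⟩ := Metric.eventually_nhds_iff_ball.1
    ((hq.continuous.tendsto u0).eventually (lt_mem_nhds h))
  let χ : ContDiffBump u0 := ⟨ε / 2, ε, by positivity, by linarith⟩
  have hpos : ∀ u, 0 < χ u * q u + (1 - χ u) := by
    intro u
    by_cases hu : u ∈ Metric.ball u0 ε
    · have h1 : 0 ≤ χ u := χ.nonneg
      have h2 : χ u ≤ 1 := χ.le_one
      have h3 := hball u hu
      rcases eq_or_lt_of_le h1 with h4 | h4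
      · rw [← h4]; norm_num
      · have := mul_pos h4 h3
        linarith
    · have : χ u = 0 := χ.zero_of_le_dist (by
        rw [Metric.mem_ball, not_lt] at hu
        exact hu)
      rw [this]; norm_num
  refine ⟨fun u => √(χ u * q u + (1 - χ u)), ?_, ?_⟩
  · have h1 : ContDiff ℝ ∞ (fun u => χ u * q u + (1 - χ u)) :=
      (χ.contDiff.mul hq).add (contDiff_const.sub χ.contDiff)
    exact h1.sqrt fun u => (hpos u).ne'
  · have : ∀ᶠ u in 𝓝 u0, u ∈ Metric.ball u0 (ε / 2) :=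
      Metric.ball_mem_nhds u0 (by positivity)
    filter_upwards [this] with u hu
    have h1 : χ u = 1 := χ.one_of_mem_closedBall (Metric.ball_subset_closedBall hu)
    simp only [h1]
    rw [Real.sq_sqrt]
    · ring
    · have := hpos u
      rw [h1] at this
      exact this.le

/-- assembling a realization from three coordinate functions -/
theorem build (g : ℝ × ℝ → ℝ × ℝ → ℝ × ℝ → ℝ) (W : Set (ℝ × ℝ)) (hW : IsOpen W) (p : ℝ × ℝ)
    (hp : p ∈ W) (F1 F2 F3 : ℝ × ℝ → ℝ) (h1 : ContDiffOn ℝ ∞ F1 W) (h2 : ContDiffOn ℝ ∞ F2 W)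
    (h3 : ContDiffOn ℝ ∞ F3 W)
    (h : ∀ᶠ z in 𝓝 p, ∀ x y : ℝ × ℝ, fderiv ℝ F1 z x * fderiv ℝ F1 z y +
      fderiv ℝ F2 z x * fderiv ℝ F2 z y + fderiv ℝ F3 z x * fderiv ℝ F3 z y = g z x y) :
    LocallyRealizable g p := by
  obtain ⟨U, hU, hUo, hpU⟩ := eventually_nhds_iff.1 h
  refine ⟨U ∩ W, fun z => WithLp.toLp 2 ![F1 z, F2 z, F3 z], hUo.inter hW, ⟨hpU, hp⟩, ?_, ?_⟩
  · rw [contDiffOn_euclidean]
    intro i
    fin_cases i
    · exact h1.mono Set.inter_subset_right
    · exact h2.mono Set.inter_subset_right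
    · exact h3.mono Set.inter_subset_right
  · intro z hz x y
    have d : ∀ G : ℝ × ℝ → ℝ, ContDiffOn ℝ ∞ G W → DifferentiableAt ℝ G z := fun G hG =>
      (hG.contDiffAt (hW.mem_nhds hz.2)).differentiableAt (by simp)
    have hF : HasFDerivAt (fun z => (WithLp.toLp 2 ![F1 z, F2 z, F3 z] :
        EuclideanSpace ℝ (Fin 3)))
        (fderiv ℝ (fun z => (WithLp.toLp 2 ![F1 z, F2 z, F3 z] :
          EuclideanSpace ℝ (Fin 3))) z) z := by
      apply DifferentiableAt.hasFDerivAt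
      rw [differentiableAt_euclidean]
      intro i
      fin_cases i
      · exact d F1 h1
      · exact d F2 h2
      · exact d F3 h3
    have hc : ∀ (i : Fin 3) (w : ℝ × ℝ),
        (fderiv ℝ (fun z => (WithLp.toLp 2 ![F1 z, F2 z, F3 z] :
          EuclideanSpace ℝ (Fin 3))) z w) i =
        fderiv ℝ (fun z => (![F1 z, F2 z, F3 z] : Fin 3 → ℝ) i) z w := by
      intro i w
      have hh : HasFDerivAt (fun z => (![F1 z, F2 z, F3 z] : Fin 3 → ℝ) i)
          ((EuclideanSpace.proj i : EuclideanSpace ℝ (Fin 3) →L[ℝ] ℝ).comp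
            (fderiv ℝ (fun z => (WithLp.toLp 2 ![F1 z, F2 z, F3 z] :
              EuclideanSpace ℝ (Fin 3))) z)) z :=
        (EuclideanSpace.proj i : EuclideanSpace ℝ (Fin 3) →L[ℝ] ℝ).hasFDerivAt.comp z hF
      rw [hh.fderiv]
      rfl
    rw [← hU z hz.1 x y, PiLp.inner_apply, Fin.sum_univ_three, hc, hc, hc, hc, hc, hc]
    simp
    ring

theorem moulding (g : ℝ × ℝ → ℝ × ℝ → ℝ × ℝ → ℝ) (W : Set (ℝ × ℝ)) (hW : IsOpen W)
    (h : MouldingType g W) (p : ℝ × ℝ) (hp : p ∈ W) : LocallyRealizable g p := by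
  obtain ⟨u, v, f, α, β, hu, hv, hf, hα, hβ, hg⟩ := h
  have hf' : ContDiff ℝ ∞ (deriv f) := (contDiff_infty_iff_deriv.1 hf).2
  obtain ⟨c, hc, hcf⟩ : ∃ c : ℝ, 0 < c ∧ (c * deriv f (u p)) ^ 2 < 1 := by
    refine ⟨1 / (1 + |deriv f (u p)|), by positivity, ?_⟩
    rw [sq_lt_one_iff_abs_lt_one, abs_mul, abs_of_pos (by positivity), one_div,
      inv_mul_lt_iff₀ (by positivity)]
    linarith
  obtain ⟨r, hr, hrq⟩ := loc_sqrt (fun t => 1 - (c * deriv f t) ^ 2)
    (contDiff_const.sub ((contDiff_const.mul hf').pow 2)) (u p) (by linarith)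
  obtain ⟨θ, hθd, hθ⟩ : ∃ θ : ℝ → ℝ, θ = prim (fun t => -β t / c) ∧ ContDiff ℝ ∞ θ :=
    ⟨_, rfl, prim_contDiff (hβ.neg.div_const c)⟩
  have hθ' : ∀ t, HasDerivAt θ (-β t / c) t := by
    intro t
    rw [hθd]
    exact prim_hasDerivAt (hβ.neg.div_const c).continuous t
  have m1 : ContDiff ℝ ∞ (fun t => α t * Real.cos (θ t)) := hα.mul hθ.cos
  have m2 : ContDiff ℝ ∞ (fun t => α t * Real.sin (θ t)) := hα.mul hθ.sin
  have hcu : ContinuousAt u p := (hu.contDiffAt (hW.mem_nhds hp)).continuousAt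
  refine build g W hW p hp
    (fun z => prim (fun t => α t * Real.cos (θ t)) (v z) - c * (f (u z) * Real.sin (θ (v z))))
    (fun z => prim (fun t => α t * Real.sin (θ t)) (v z) + c * (f (u z) * Real.cos (θ (v z))))
    (fun z => prim r (u z)) ?_ ?_ ?_ ?_
  · exact ((prim_contDiff m1).comp_contDiffOn hv).sub
      (contDiffOn_const.mul ((hf.comp_contDiffOn hu).mul (hθ.sin.comp_contDiffOn hv)))
  · exact ((prim_contDiff m2).comp_contDiffOn hv).add
      (contDiffOn_const.mul ((hf.comp_contDiffOn hu).mul (hθ.cos.comp_contDiffOn hv)))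
  · exact (prim_contDiff hr).comp_contDiffOn hu
  · filter_upwards [hcu.eventually hrq, hW.mem_nhds hp] with z hz hzW x y
    have du : HasFDerivAt u (fderiv ℝ u z) z :=
      ((hu.contDiffAt (hW.mem_nhds hzW)).differentiableAt (by simp)).hasFDerivAt
    have dv : HasFDerivAt v (fderiv ℝ v z) z :=
      ((hv.contDiffAt (hW.mem_nhds hzW)).differentiableAt (by simp)).hasFDerivAt
    have H1 := (prim_hasDerivAt m1.continuous (v z)).comp_hasFDerivAt z dv
    have H2 := (prim_hasDerivAt m2.continuous (v z)).comp_hasFDerivAt z dv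
    have H3 := (prim_hasDerivAt hr.continuous (u z)).comp_hasFDerivAt z du
    have Hf := ((hf.differentiable (by simp)) (u z)).hasDerivAt.comp_hasFDerivAt z du
    have Hs := (hθ' (v z)).sin.comp_hasFDerivAt z dv
    have Hc := (hθ' (v z)).cos.comp_hasFDerivAt z dv
    have D1 : ∀ w, fderiv ℝ (fun z => prim (fun t => α t * Real.cos (θ t)) (v z) -
        c * (f (u z) * Real.sin (θ (v z)))) z w =
        (α (v z) + f (u z) * β (v z)) * Real.cos (θ (v z)) * fderiv ℝ v z w -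
          c * deriv f (u z) * Real.sin (θ (v z)) * fderiv ℝ u z w := by
      intro w
      have := (H1.sub ((Hf.mul Hs).const_mul c)).fderiv
      rw [show (fun z => prim (fun t => α t * Real.cos (θ t)) (v z) -
        c * (f (u z) * Real.sin (θ (v z)))) = _ from rfl]
      erw [this]
      simp
      field_simp
      ring
    have D2 : ∀ w, fderiv ℝ (fun z => prim (fun t => α t * Real.sin (θ t)) (v z) +
        c * (f (u z) * Real.cos (θ (v z)))) z w =
        (α (v z) + f (u z) * β (v z)) * Real.sin (θ (v z)) * fderiv ℝ v z w +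
          c * deriv f (u z) * Real.cos (θ (v z)) * fderiv ℝ u z w := by
      intro w
      have := (H2.add ((Hf.mul Hc).const_mul c)).fderiv
      erw [this]
      simp
      field_simp
      ring
    have D3 : ∀ w, fderiv ℝ (fun z => prim r (u z)) z w = r (u z) * fderiv ℝ u z w := by
      intro w
      have := H3.fderiv
      erw [this]
      simp
    rw [D1, D1, D2, D2, D3, D3, hg z hzW x y]
    have hsc := Real.sin_sq_add_cos_sq (θ (v z))
    linear_combination (fderiv ℝ u z x * fderiv ℝ u z y) * hz +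
      ((α (v z) + f (u z) * β (v z)) ^ 2 * (fderiv ℝ v z x * fderiv ℝ v z y) +
        (c * deriv f (u z)) ^ 2 * (fderiv ℝ u z x * fderiv ℝ u z y)) * hsc

theorem translation (g : ℝ × ℝ → ℝ × ℝ → ℝ × ℝ → ℝ) (W : Set (ℝ × ℝ)) (hW : IsOpen W)
    (h : TranslationType g W) (p : ℝ × ℝ) (hp : p ∈ W) : LocallyRealizable g p := by
  obtain ⟨u, v, e, k, a, b, hu, hv, he, hk, ha, hb, hpos, hg⟩ := h
  obtain ⟨he0, hk0, hD⟩ := hpos p hp
  obtain ⟨l, hl, hl1, hl2⟩ : ∃ l : ℝ, 0 < l ∧ (l * a (u p)) ^ 2 < e (u p) ∧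
      (b (v p) / l) ^ 2 < k (v p) := by
    obtain ⟨s, hs, hs1, hs2⟩ : ∃ s : ℝ, 0 < s ∧ s * a (u p) ^ 2 < e (u p) ∧
        b (v p) ^ 2 < s * k (v p) := by
      have hD' : 0 < e (u p) * k (v p) - a (u p) ^ 2 * b (v p) ^ 2 := by
        rw [mul_pow] at hD
        linarith
      refine ⟨(b (v p) ^ 2 + (e (u p) * k (v p) - a (u p) ^ 2 * b (v p) ^ 2) /
        (a (u p) ^ 2 + 1)) / k (v p), by positivity, ?_, ?_⟩
      · rw [div_mul_eq_mul_div, div_lt_iff₀ hk0]
        have h1 : (e (u p) * k (v p) - a (u p) ^ 2 * b (v p) ^ 2) / (a (u p) ^ 2 + 1) *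
            a (u p) ^ 2 < e (u p) * k (v p) - a (u p) ^ 2 * b (v p) ^ 2 := by
          rw [div_mul_eq_mul_div, div_lt_iff₀ (by positivity)]
          nlinarith
        nlinarith
      · rw [div_mul_cancel₀ _ hk0.ne']
        have : 0 < (e (u p) * k (v p) - a (u p) ^ 2 * b (v p) ^ 2) / (a (u p) ^ 2 + 1) :=
          div_pos hD' (by positivity)
        linarith
    refine ⟨√s, Real.sqrt_pos.2 hs, ?_, ?_⟩
    · rw [mul_pow, Real.sq_sqrt hs.le]
      exact hs1
    · rw [div_pow, Real.sq_sqrt hs.le, div_lt_iff₀ hs]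
      linarith
  obtain ⟨r, hr, hrq⟩ := loc_sqrt (fun t => e t - (l * a t) ^ 2)
    (he.sub ((contDiff_const.mul ha).pow 2)) (u p) (by linarith)
  obtain ⟨s, hs, hsq⟩ := loc_sqrt (fun t => k t - (b t / l) ^ 2)
    (hk.sub ((hb.div_const l).pow 2)) (v p) (by linarith)
  have m1 : ContDiff ℝ ∞ (fun t => l * a t) := contDiff_const.mul ha
  have m2 : ContDiff ℝ ∞ (fun t => b t / l) := hb.div_const l
  have hcu : ContinuousAt u p := (hu.contDiffAt (hW.mem_nhds hp)).continuousAt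
  have hcv : ContinuousAt v p := (hv.contDiffAt (hW.mem_nhds hp)).continuousAt
  refine build g W hW p hp
    (fun z => prim (fun t => l * a t) (u z) + prim (fun t => b t / l) (v z))
    (fun z => prim r (u z)) (fun z => prim s (v z)) ?_ ?_ ?_ ?_
  · exact ((prim_contDiff m1).comp_contDiffOn hu).add ((prim_contDiff m2).comp_contDiffOn hv)
  · exact (prim_contDiff hr).comp_contDiffOn hu
  · exact (prim_contDiff hs).comp_contDiffOn hv
  · filter_upwards [hcu.eventually hrq, hcv.eventually hsq, hW.mem_nhds hp]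
      with z hz1 hz2 hzW x y
    have du : HasFDerivAt u (fderiv ℝ u z) z :=
      ((hu.contDiffAt (hW.mem_nhds hzW)).differentiableAt (by simp)).hasFDerivAt
    have dv : HasFDerivAt v (fderiv ℝ v z) z :=
      ((hv.contDiffAt (hW.mem_nhds hzW)).differentiableAt (by simp)).hasFDerivAt
    have H1 := (prim_hasDerivAt m1.continuous (u z)).comp_hasFDerivAt z du
    have H2 := (prim_hasDerivAt m2.continuous (v z)).comp_hasFDerivAt z dv
    have H3 := (prim_hasDerivAt hr.continuous (u z)).comp_hasFDerivAt z du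
    have H4 := (prim_hasDerivAt hs.continuous (v z)).comp_hasFDerivAt z dv
    have D1 : ∀ w, fderiv ℝ (fun z => prim (fun t => l * a t) (u z) +
        prim (fun t => b t / l) (v z)) z w =
        l * a (u z) * fderiv ℝ u z w + b (v z) / l * fderiv ℝ v z w := by
      intro w
      have := (H1.add H2).fderiv
      erw [this]
      simp
    have D3 : ∀ w, fderiv ℝ (fun z => prim r (u z)) z w = r (u z) * fderiv ℝ u z w := by
      intro w
      have := H3.fderiv
      erw [this]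
      simp
    have D4 : ∀ w, fderiv ℝ (fun z => prim s (v z)) z w = s (v z) * fderiv ℝ v z w := by
      intro w
      have := H4.fderiv
      erw [this]
      simp
    rw [D1, D1, D3, D3, D4, D4, hg z hzW x y]
    have hll : l * (1 / l) = 1 := by field_simp
    have e1 : b (v z) / l * l = b (v z) := by field_simp
    have e2 : (l * a (u z) * fderiv ℝ u z x + b (v z) / l * fderiv ℝ v z x) *
        (l * a (u z) * fderiv ℝ u z y + b (v z) / l * fderiv ℝ v z y) =
        (l * a (u z)) ^ 2 * (fderiv ℝ u z x * fderiv ℝ u z y) +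
        (b (v z) / l * l) * a (u z) * (fderiv ℝ u z x * fderiv ℝ v z y +
          fderiv ℝ v z x * fderiv ℝ u z y) +
        (b (v z) / l) ^ 2 * (fderiv ℝ v z x * fderiv ℝ v z y) := by ring
    rw [e2, e1]
    linear_combination (fderiv ℝ u z x * fderiv ℝ u z y) * hz1 +
      (fderiv ℝ v z x * fderiv ℝ v z y) * hz2

/-- Every metric of moulding type or of translation type on an open set `W` is locally
`C^∞`-realizable in Euclidean `ℝ³` at every point of `W`. -/
theorem result (g : ℝ × ℝ → ℝ × ℝ → ℝ × ℝ → ℝ) (W : Set (ℝ × ℝ)) (hW : IsOpen W)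
    (h : MouldingType g W ∨ TranslationType g W) : ∀ p ∈ W, LocallyRealizable g p := by
  intro p hp
  rcases h with h | h
  · exact moulding g W hW h p hp
  · exact translation g W hW h p hp

end Vale.Agent.Results.P229.MouldingMetrics
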